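import Vale.Agent.P365.J376.DiffEn

/-!
# P365, Z7a: derivative of the self-energy flux along a profile, slope inequality.
-/

set_option linter.all false

namespace Vale.Agent.P365.Z0.H95

open P365L P365O P365T1 Matrix Complex Filter Topology
open Vale.Agent.P365.J376 (Wp Wp_im Wp_re hasDerivAt_Gr)
open scoped ComplexConjugate

variable {ι : Type*} [Fintype ι] [DecidableEq ι] {A : Matrix ι ι ℝ}

/-- `Sf = -Im (1 / G_zz)` -/
theorem inv_Gr_im {W : ι → ℂ} (hA : A.IsSymm) (hW : ∀ x, (W x).im < 0) (z : ι) :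
    ((Gr A W z z)⁻¹).im = -Sf A W z := by
  have h1 := sg_im hA hW z
  rw [sg, Complex.sub_im] at h1
  linarith

/-- derivative of the flux of the unit wave along an imaginary path -/
theorem hasDerivAt_Sf (hA : A.IsSymm) {a : ι → ℝ} {h : ℝ → ι → ℝ} {h' : ι → ℝ} {s₀ : ℝ}
    (hd : ∀ x, HasDerivAt (fun s => h s x) (h' x) s₀) (hpos : ∀ x, 0 < h s₀ x) (z : ι) :
    HasDerivAt (fun s => Sf A (Wp a (h s)) z)
      (∑ y, h' y * (gw A (Wp a (h s₀)) z y ^ 2).re) s₀ := by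
  have hneg : ∀ x, (Wp a (h s₀) x).im < 0 := fun x => by
    rw [Wp_im]
    linarith [hpos x]
  have hWd : ∀ x, HasDerivAt (fun s => Wp a (h s) x) (-((h' x : ℂ) * I)) s₀ := by
    intro x
    have h1 : HasDerivAt (fun s => (h s x : ℂ)) (h' x : ℂ) s₀ := (hd x).ofReal_comp
    exact (h1.mul_const I).const_sub (a x : ℂ)
  have h0 := Gr_self_ne_zero hA hneg z
  have h1 := (hasDerivAt_Gr hA hWd hneg z z).inv h0
  have h2 : -(∑ y, Gr A (Wp a (h s₀)) z y * (-(-((h' y : ℂ) * I))) * Gr A (Wp a (h s₀)) y z) /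
      Gr A (Wp a (h s₀)) z z ^ 2 =
      -(I * ∑ y, ((h' y : ℝ) : ℂ) * gw A (Wp a (h s₀)) z y ^ 2) := by
    rw [Finset.mul_sum, ← Finset.sum_neg_distrib, ← Finset.sum_neg_distrib, Finset.sum_div]
    refine Finset.sum_congr rfl fun y _ => ?_
    rw [Gr_eq_gw' hA hneg z y, Gr_eq_gw hA hneg z y]
    field_simp
  rw [h2] at h1
  have h3 : HasDerivAt (fun s => ((Gr A (Wp a (h s)) z z)⁻¹).im)
      (-(∑ y, h' y * (gw A (Wp a (h s₀)) z y ^ 2).re)) s₀ := by
    have h4 := (Complex.imCLM.hasFDerivAt (x := (Gr A (Wp a (h s₀)) z z)⁻¹)).comp_hasDerivAt s₀ h1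
    have h5 : Complex.imCLM (-(I * ∑ y, ((h' y : ℝ) : ℂ) * gw A (Wp a (h s₀)) z y ^ 2)) =
        -(∑ y, h' y * (gw A (Wp a (h s₀)) z y ^ 2).re) := by
      rw [Complex.imCLM_apply, Complex.neg_im, Complex.I_mul_im, Complex.re_sum]
      congr 1
      refine Finset.sum_congr rfl fun y _ => ?_
      rw [Complex.re_ofReal_mul]
    rw [h5] at h4
    exact h4
  have hev : ∀ᶠ s in 𝓝 s₀, ∀ x, (Wp a (h s) x).im < 0 := by
    rw [eventually_all]
    intro x
    exact (Complex.continuous_im.continuousAt.comp (hWd x).continuousAt).eventually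
      (gt_mem_nhds (hneg x))
  have h6 : (fun s => Sf A (Wp a (h s)) z) =ᶠ[𝓝 s₀]
      fun s => -((Gr A (Wp a (h s)) z z)⁻¹).im := by
    filter_upwards [hev] with s hs
    rw [inv_Gr_im hA hs]
    ring
  have h7 := h3.neg
  rw [neg_neg] at h7
  exact h7.congr_of_eventuallyEq h6

/-- `(Im g_y)² ≤ Im Gi_yy · Sf_z` -/
theorem gw_im_sq_le {W : ι → ℂ} (hA : A.IsSymm) (hW : ∀ x, (W x).im < 0) (z y : ι) :
    (gw A W z y).im ^ 2 ≤ (Gi A W z y y).im * Sf A W z := by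
  have h1 := Gi_gw hA hW z y
  have h2 := Gi_ward hA hW z y y
  have h3 : ∑ c, (-(W c).im) * ‖Gi A W z y c‖ ^ 2 = (Gi A W z y y).im := by
    have h4 : (((∑ c, (-(W c).im) * ‖Gi A W z y c‖ ^ 2 : ℝ)) : ℂ) =
        (((Gi A W z y y).im : ℝ) : ℂ) := by
      rw [← h2]
      push_cast
      refine Finset.sum_congr rfl fun c _ => ?_
      rw [Complex.mul_conj, Complex.normSq_eq_norm_sq]
      push_cast
      rfl
    exact_mod_cast h4
  have h5 : |(gw A W z y).im| ≤ ∑ b, (-(W b).im) * (‖Gi A W z y b‖ * ‖gw A W z b‖) := by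
    have h6 : |(gw A W z y).im| = ‖(((gw A W z y).im : ℝ) : ℂ)‖ := by
      rw [Complex.norm_real, Real.norm_eq_abs]
    rw [h6, ← h1]
    refine (norm_sum_le _ _).trans (Finset.sum_le_sum fun b _ => ?_)
    have hb : 0 ≤ -(W b).im := by linarith [hW b]
    rw [norm_mul, norm_mul, Complex.norm_conj, Complex.norm_real, Real.norm_eq_abs,
      abs_of_nonneg hb]
  have h7 : (∑ b, (-(W b).im) * (‖Gi A W z y b‖ * ‖gw A W z b‖)) ^ 2 ≤
      (∑ b, (-(W b).im) * ‖Gi A W z y b‖ ^ 2) * ∑ b, (-(W b).im) * ‖gw A W z b‖ ^ 2 :=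
    Finset.sum_sq_le_sum_mul_sum_of_sq_eq_mul (R := ℝ) Finset.univ
      (fun b _ => mul_nonneg (by linarith [hW b]) (sq_nonneg _))
      (fun b _ => mul_nonneg (by linarith [hW b]) (sq_nonneg _))
      (fun b _ => by ring)
  rw [h3] at h7
  calc (gw A W z y).im ^ 2 = |(gw A W z y).im| ^ 2 := (sq_abs _).symm
    _ ≤ (∑ b, (-(W b).im) * (‖Gi A W z y b‖ * ‖gw A W z b‖)) ^ 2 :=
        pow_le_pow_left₀ (abs_nonneg _) h5 2
    _ ≤ _ := h7

/-- share of the site `y` in the flux of the unit wave of `z` (`= e_y K_zy / m_z`) -/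
noncomputable def sh (A : Matrix ι ι ℝ) (W : ι → ℂ) (z y : ι) : ℝ :=
  (-(W y).im) * ‖gw A W z y‖ ^ 2 / Sf A W z

theorem sh_nonneg {W : ι → ℂ} (hA : A.IsSymm) (hW : ∀ x, (W x).im < 0) (z y : ι) :
    0 ≤ sh A W z y :=
  div_nonneg (mul_nonneg (by linarith [hW y]) (sq_nonneg _)) (Sf_pos hA hW z).le

theorem sh_eq {W : ι → ℂ} (hA : A.IsSymm) (hW : ∀ x, (W x).im < 0) (z y : ι) :
    sh A W z y = (-(W y).im) * KK A W z y / mm A W z := by
  have hg : ‖Gr A W z z‖ ^ 2 ≠ 0 := (pow_pos (norm_pos_iff.2 (Gr_self_ne_zero hA hW z)) 2).ne'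
  rw [sh, KK_eq_gw hA hW, mm_eq_Sf hA hW, ← mul_assoc, mul_div_mul_right _ _ hg]

theorem sum_sh {W : ι → ℂ} (hA : A.IsSymm) (hW : ∀ x, (W x).im < 0) (z : ι) :
    ∑ y, sh A W z y = 1 := by
  have hS := Sf_pos hA hW z
  simp only [sh]
  rw [← Finset.sum_div, ← Sf, div_self hS.ne']

/-- **slope inequality**: profile `h(s) = u + s w` (`u, w ≥ 0`), `B` any set of sites. -/
theorem slope_ge (hA : A.IsSymm) (a u w : ι → ℝ) (hu : ∀ x, 0 ≤ u x) (hw : ∀ x, 0 ≤ w x) {s : ℝ}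
    (hs : 0 < s) (hpos : ∀ x, 0 < u x + s * w x) (z : ι) (B : Finset ι) :
    HasDerivAt (fun t => Real.log (Sf A (Wp a (fun x => u x + t * w x)) z))
      ((∑ y, w y * (gw A (Wp a (fun x => u x + s * w x)) z y ^ 2).re) /
        Sf A (Wp a (fun x => u x + s * w x)) z) s ∧
    1 - ∑ y, u y * ‖gw A (Wp a (fun x => u x + s * w x)) z y‖ ^ 2 /
          Sf A (Wp a (fun x => u x + s * w x)) z
      - 2 * ∑ y ∈ Bᶜ, s * w y * ‖gw A (Wp a (fun x => u x + s * w x)) z y‖ ^ 2 /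
          Sf A (Wp a (fun x => u x + s * w x)) z
      - 2 * ∑ y ∈ B, s * w y * (Gi A (Wp a (fun x => u x + s * w x)) z y y).im ≤
      s * ((∑ y, w y * (gw A (Wp a (fun x => u x + s * w x)) z y ^ 2).re) /
        Sf A (Wp a (fun x => u x + s * w x)) z) := by
  set W : ι → ℂ := Wp a (fun x => u x + s * w x) with hWd
  have hneg : ∀ x, (W x).im < 0 := fun x => by
    rw [hWd, Wp_im]
    linarith [hpos x]
  have hS := Sf_pos hA hneg z
  have hd := hasDerivAt_Sf (a := a) (h := fun t x => u x + t * w x) (h' := w) (s₀ := s) hA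
    (fun x => by
      simpa using ((hasDerivAt_id s).mul_const (w x)).const_add (u x)) hpos z
  refine ⟨hd.log hS.ne', ?_⟩
  have hre : ∀ y, (gw A W z y ^ 2).re = ‖gw A W z y‖ ^ 2 - 2 * (gw A W z y).im ^ 2 := by
    intro y
    rw [← Complex.normSq_eq_norm_sq, Complex.normSq_apply, sq, Complex.mul_re]
    ring
  have hSf : Sf A W z = ∑ y, (u y * ‖gw A W z y‖ ^ 2 + s * w y * ‖gw A W z y‖ ^ 2) := by
    rw [Sf]
    refine Finset.sum_congr rfl fun y _ => ?_
    have : -(W y).im = u y + s * w y := by rw [hWd, Wp_im, neg_neg]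
    rw [this]
    ring
  have h1 : s * ((∑ y, w y * (gw A W z y ^ 2).re) / Sf A W z) =
      1 - (∑ y, u y * ‖gw A W z y‖ ^ 2 / Sf A W z) -
        2 * ∑ y, s * w y * (gw A W z y).im ^ 2 / Sf A W z := by
    have h2 : s * ∑ y, w y * (gw A W z y ^ 2).re =
        Sf A W z - (∑ y, u y * ‖gw A W z y‖ ^ 2) - 2 * ∑ y, s * w y * (gw A W z y).im ^ 2 := by
      rw [hSf, Finset.mul_sum, Finset.mul_sum, ← Finset.sum_sub_distrib, ← Finset.sum_sub_distrib]
      refine Finset.sum_congr rfl fun y _ => ?_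
      rw [hre]
      ring
    rw [← mul_div_assoc, h2, ← Finset.sum_div, ← Finset.sum_div]
    field_simp
  rw [h1, ← Finset.sum_add_sum_compl B (fun y => s * w y * (gw A W z y).im ^ 2 / Sf A W z)]
  have h3 : ∑ y ∈ B, s * w y * (gw A W z y).im ^ 2 / Sf A W z ≤
      ∑ y ∈ B, s * w y * (Gi A W z y y).im := by
    refine Finset.sum_le_sum fun y _ => ?_
    rw [div_le_iff₀ hS, mul_assoc (s * w y)]
    exact mul_le_mul_of_nonneg_left (gw_im_sq_le hA hneg z y) (mul_nonneg hs.le (hw y))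
  have h4 : ∑ y ∈ Bᶜ, s * w y * (gw A W z y).im ^ 2 / Sf A W z ≤
      ∑ y ∈ Bᶜ, s * w y * ‖gw A W z y‖ ^ 2 / Sf A W z := by
    refine Finset.sum_le_sum fun y _ => ?_
    refine div_le_div_of_nonneg_right ?_ hS.le
    refine mul_le_mul_of_nonneg_left ?_ (mul_nonneg hs.le (hw y))
    have h5 := Complex.abs_im_le_norm (gw A W z y)
    rw [← sq_abs]
    exact pow_le_pow_left₀ (abs_nonneg _) h5 2
  linarith

theorem abs_re_gw_sq_le (W : ι → ℂ) (z y : ι) : |(gw A W z y ^ 2).re| ≤ ‖gw A W z y‖ ^ 2 := by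
  rw [← norm_pow]
  exact Complex.abs_re_le_norm _

/-- derivative of `log Sf` along any path of profiles, and its bound by the largest logarithmic
derivative of the profile -/
theorem log_Sf_deriv (hA : A.IsSymm) {a : ι → ℝ} {h : ℝ → ι → ℝ} {h' : ι → ℝ} {s₀ L : ℝ}
    (hd : ∀ x, HasDerivAt (fun s => h s x) (h' x) s₀) (hpos : ∀ x, 0 < h s₀ x)
    (hL : ∀ x, |h' x| ≤ L * h s₀ x) (z : ι) :
    HasDerivAt (fun s => Real.log (Sf A (Wp a (h s)) z))
      ((∑ y, h' y * (gw A (Wp a (h s₀)) z y ^ 2).re) / Sf A (Wp a (h s₀)) z) s₀ ∧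
    |(∑ y, h' y * (gw A (Wp a (h s₀)) z y ^ 2).re) / Sf A (Wp a (h s₀)) z| ≤ L := by
  have hneg : ∀ x, (Wp a (h s₀) x).im < 0 := fun x => by
    rw [Wp_im]
    linarith [hpos x]
  have hS := Sf_pos hA hneg z
  refine ⟨(hasDerivAt_Sf hA hd hpos z).log hS.ne', ?_⟩
  rw [abs_div, abs_of_pos hS, div_le_iff₀ hS, Sf, Finset.mul_sum]
  refine (Finset.abs_sum_le_sum_abs _ _).trans (Finset.sum_le_sum fun y _ => ?_)
  rw [abs_mul, Wp_im, neg_neg, ← mul_assoc]
  have h1 := abs_re_gw_sq_le (A := A) (Wp a (h s₀)) z y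
  calc |h' y| * |(gw A (Wp a (h s₀)) z y ^ 2).re|
      ≤ |h' y| * ‖gw A (Wp a (h s₀)) z y‖ ^ 2 := mul_le_mul_of_nonneg_left h1 (abs_nonneg _)
    _ ≤ _ := mul_le_mul_of_nonneg_right (hL y) (sq_nonneg _)

/-- `log Sf` is 1-Lipschitz in the logarithm of the profile (sup norm) -/
theorem log_Sf_dist (hA : A.IsSymm) (a h0 h1 : ι → ℝ) (p0 : ∀ x, 0 < h0 x) (p1 : ∀ x, 0 < h1 x)
    {L : ℝ} (hL : ∀ x, |Real.log (h1 x) - Real.log (h0 x)| ≤ L) (z : ι) :
    |Real.log (Sf A (Wp a h1) z) - Real.log (Sf A (Wp a h0) z)| ≤ L := by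
  set h : ℝ → ι → ℝ := fun t x =>
    Real.exp (Real.log (h0 x) + t * (Real.log (h1 x) - Real.log (h0 x))) with hh
  have hd : ∀ t x, HasDerivAt (fun s => h s x)
      (h t x * (Real.log (h1 x) - Real.log (h0 x))) t := by
    intro t x
    have e1 : HasDerivAt (fun s : ℝ => Real.log (h0 x) +
        s * (Real.log (h1 x) - Real.log (h0 x))) (Real.log (h1 x) - Real.log (h0 x)) t := by
      simpa using ((hasDerivAt_id t).mul_const (Real.log (h1 x) - Real.log (h0 x))).const_add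
        (Real.log (h0 x))
    exact e1.exp
  have hp : ∀ t x, 0 < h t x := fun t x => Real.exp_pos _
  have hb : ∀ t x, |h t x * (Real.log (h1 x) - Real.log (h0 x))| ≤ L * h t x := by
    intro t x
    rw [abs_mul, abs_of_pos (hp t x), mul_comm]
    exact mul_le_mul_of_nonneg_right (hL x) (hp t x).le
  have hD := fun t => log_Sf_deriv (a := a) (L := L) hA (hd t) (hp t) (hb t) z
  have h3 := Convex.norm_image_sub_le_of_norm_hasDerivWithin_le
    (f := fun s => Real.log (Sf A (Wp a (h s)) z)) (s := Set.univ) (C := L)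
    (fun t _ => (hD t).1.hasDerivWithinAt) (fun t _ => by
      rw [Real.norm_eq_abs]
      exact (hD t).2) convex_univ (Set.mem_univ (0 : ℝ)) (Set.mem_univ (1 : ℝ))
  have e0 : h 0 = h0 := by
    funext x
    simp [hh, Real.exp_log (p0 x)]
  have e1 : h 1 = h1 := by
    funext x
    simp [hh, Real.exp_log (p1 x)]
  simp only [e0, e1, Real.norm_eq_abs, sub_zero, abs_one, mul_one] at h3
  exact h3

end Vale.Agent.P365.Z0.H95
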